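import Vale.Agent.P013.MathlibUsed

namespace Vale.Agent.P013

/-- Jacobsthal's function: the least positive `m` such that every set
`{x + 1, …, x + m}` of `m` consecutive integers contains an integer coprime to `n`. -/
noncomputable def jacobsthal (n : ℕ) : ℕ :=
  sInf {m : ℕ | 0 < m ∧ ∀ x : ℤ, ∃ t : ℤ, x < t ∧ t ≤ x + m ∧ Int.gcd t n = 1}

end Vale.Agent.P013
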