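import Mathlib

namespace Vale.Agent.P013

open Finset Real

/-- `∑_{p < x} log p / p`. -/
noncomputable def mA (x : ℕ) : ℝ := ∑ p ∈ (range x).filter Nat.Prime, Real.log p / p

lemma log_factorial_eq (n : ℕ) :
    Real.log (n.factorial : ℝ) =
      ∑ p ∈ (range (n + 1)).filter Nat.Prime, (padicValNat p n.factorial : ℝ) * Real.log p := by
  rw [Real.log_nat_eq_sum_factorization]
  unfold Finsupp.sum
  rw [Nat.support_factorization]
  have hsub : n.factorial.primeFactors ⊆ (range (n + 1)).filter Nat.Prime := by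
    intro p hp
    rw [Nat.mem_primeFactors] at hp
    rw [mem_filter, mem_range]
    refine ⟨?_, hp.1⟩
    have := (hp.1.dvd_factorial).mp hp.2.1
    omega
  rw [sum_subset hsub]
  · apply sum_congr rfl
    intro p hp
    rw [mem_filter] at hp
    rw [Nat.factorization_def _ hp.2]
  · intro p _ hp
    have : n.factorial.factorization p = 0 := by
      rw [← Finsupp.notMem_support_iff, Nat.support_factorization]; exact hp
    rw [this]; simp

lemma padic_le (p n : ℕ) (hp : p.Prime) :
    (padicValNat p n.factorial : ℝ) ≤ n / ((p : ℝ) - 1) := by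
  have := Fact.mk hp
  have h := @sub_one_mul_padicValNat_factorial p _ n
  have h1 : ((p : ℝ) - 1) * padicValNat p n.factorial ≤ n := by
    have h2 : (p - 1) * padicValNat p n.factorial ≤ n := by rw [h]; exact Nat.sub_le _ _
    have h3 : (((p - 1) * padicValNat p n.factorial : ℕ) : ℝ) ≤ n := by exact_mod_cast h2
    rw [Nat.cast_mul, Nat.cast_sub hp.one_le, Nat.cast_one] at h3
    exact h3
  have h4 : (0 : ℝ) < (p : ℝ) - 1 := by
    have : (2 : ℝ) ≤ p := by exact_mod_cast hp.two_le
    linarith only [this]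
  rw [le_div_iff₀ h4]
  linarith only [h1]

lemma le_padic (p n : ℕ) (hp : p.Prime) (hpn : p ≤ n) :
    ((n : ℝ) / p - 1) ≤ (padicValNat p n.factorial : ℝ) := by
  have := Fact.mk hp
  have h := padicValNat_factorial (p := p) (n := n) (b := Nat.log p n + 1) (Nat.lt_succ_self _)
  have h1 : n / p ≤ padicValNat p n.factorial := by
    rw [h]
    have hmem : 1 ∈ Ico 1 (Nat.log p n + 1) := by
      rw [mem_Ico]
      refine ⟨le_refl _, ?_⟩
      have : 0 < Nat.log p n := Nat.log_pos hp.one_lt hpn
      omega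
    calc n / p = n / p ^ 1 := by rw [pow_one]
      _ ≤ ∑ i ∈ Ico 1 (Nat.log p n + 1), n / p ^ i :=
        single_le_sum (f := fun i => n / p ^ i) (fun _ _ => Nat.zero_le _) hmem
  have h2 : (n : ℝ) / p < ((n / p : ℕ) : ℝ) + 1 := by
    have hp0 : (0 : ℝ) < p := by exact_mod_cast hp.pos
    rw [div_lt_iff₀ hp0]
    have := Nat.lt_div_mul_add hp.pos (a := n)
    have h3 : n < (n / p + 1) * p := by
      rw [add_mul, one_mul]; exact this
    exact_mod_cast h3
  have h3 : ((n / p : ℕ) : ℝ) ≤ (padicValNat p n.factorial : ℝ) := by exact_mod_cast h1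
  linarith only [h2, h3]

lemma log_factorial_le (n : ℕ) :
    Real.log (n.factorial : ℝ) ≤ n * Real.log n := by
  have h : (n.factorial : ℝ) ≤ (n : ℝ) ^ n := by exact_mod_cast Nat.factorial_le_pow n
  have h0 : (0 : ℝ) < n.factorial := by exact_mod_cast n.factorial_pos
  calc Real.log (n.factorial : ℝ) ≤ Real.log ((n : ℝ) ^ n) := Real.log_le_log h0 h
    _ = n * Real.log n := by rw [Real.log_pow]

lemma le_log_factorial (n : ℕ) (hn : 1 ≤ n) :
    n * Real.log n - n ≤ Real.log (n.factorial : ℝ) := by
  have hn0 : (0 : ℝ) < n := by exact_mod_cast hn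
  have h : (n : ℝ) ^ n / n.factorial ≤ Real.exp n := by
    have := Real.pow_div_factorial_le_exp (n : ℝ) (by positivity) n
    exact this
  have h0 : (0 : ℝ) < n.factorial := by exact_mod_cast n.factorial_pos
  have h2 : (0 : ℝ) < (n : ℝ) ^ n := pow_pos hn0 n
  have h1 : Real.log ((n : ℝ) ^ n / n.factorial) ≤ n := by
    rw [Real.log_le_iff_le_exp (div_pos h2 h0)]
    exact h
  rw [Real.log_div h2.ne' h0.ne', Real.log_pow] at h1
  linarith only [h1]

lemma sum_log_le (n : ℕ) (hn : 1 ≤ n) :
    ∑ p ∈ (range (n + 1)).filter Nat.Prime, Real.log p / p ≤ Real.log n + Real.log 4 := by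
  have hn0 : (0 : ℝ) < n := by exact_mod_cast hn
  have h1 := log_factorial_le n
  rw [log_factorial_eq] at h1
  have h2 : ∑ p ∈ (range (n + 1)).filter Nat.Prime, ((n : ℝ) / p - 1) * Real.log p ≤
      ∑ p ∈ (range (n + 1)).filter Nat.Prime, (padicValNat p n.factorial : ℝ) * Real.log p := by
    apply sum_le_sum
    intro p hp
    rw [mem_filter, mem_range] at hp
    apply mul_le_mul_of_nonneg_right
    · exact le_padic p n hp.2 (by omega)
    · exact Real.log_nonneg (by exact_mod_cast hp.2.one_le)
  have h3 : ∑ p ∈ (range (n + 1)).filter Nat.Prime, Real.log p ≤ Real.log 4 * n := by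
    have := Chebyshev.theta_le_log4_mul_x (x := (n : ℝ)) (by positivity)
    refine le_trans (le_of_eq ?_) this
    rw [Chebyshev.theta_eq_sum_primesLE_log]
    apply sum_congr _ (fun _ _ => rfl)
    ext p
    simp [Nat.mem_primesLE, mem_filter, mem_range]
  have h4 : ∑ p ∈ (range (n + 1)).filter Nat.Prime, ((n : ℝ) / p - 1) * Real.log p =
      n * ∑ p ∈ (range (n + 1)).filter Nat.Prime, Real.log p / p -
      ∑ p ∈ (range (n + 1)).filter Nat.Prime, Real.log p := by
    rw [mul_sum, ← sum_sub_distrib]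
    apply sum_congr rfl
    intro p _
    ring
  have h5 : n * ∑ p ∈ (range (n + 1)).filter Nat.Prime, Real.log p / p ≤
      n * (Real.log n + Real.log 4) := by linarith only [h1, h2, h3, h4]
  exact le_of_mul_le_mul_left h5 hn0

lemma sum_log_ge : ∃ C : ℝ, 0 < C ∧ ∀ n : ℕ, 1 ≤ n →
    Real.log n - C ≤ ∑ p ∈ (range (n + 1)).filter Nat.Prime, Real.log p / p := by
  have hsum : Summable (fun n : ℕ => Real.log n / ((n : ℝ) * ((n : ℝ) - 1))) := by
    have h0 : Summable (fun n : ℕ => 4 * (1 / (n : ℝ) ^ (3 / 2 : ℝ))) := by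
      apply Summable.mul_left
      exact Real.summable_one_div_nat_rpow.mpr (by norm_num)
    apply Summable.of_nonneg_of_le _ _ h0
    · intro n
      rcases Nat.eq_zero_or_pos n with rfl | hn
      · simp
      · have h1 : (1 : ℝ) ≤ n := by exact_mod_cast hn
        apply div_nonneg (Real.log_nonneg h1)
        apply mul_nonneg (by linarith only [h1]) (by linarith only [h1])
    · intro n
      rcases Nat.lt_or_ge n 2 with hn | hn
      · interval_cases n <;> simp
      · have h1 : (2 : ℝ) ≤ n := by exact_mod_cast hn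
        have hlog : Real.log n ≤ 2 * (n : ℝ) ^ (1 / 2 : ℝ) := by
          have := Real.log_le_rpow_div (x := (n : ℝ)) (ε := 1 / 2) (by linarith only [h1]) (by norm_num)
          linarith only [this]
        have hn1 : (n : ℝ) / 2 ≤ (n : ℝ) - 1 := by linarith only [h1]
        have hn0 : (0 : ℝ) < n := by linarith only [h1]
        have hrp : (n : ℝ) ^ (3 / 2 : ℝ) * (n : ℝ) ^ (1 / 2 : ℝ) = n * n := by
          rw [← Real.rpow_add hn0]
          norm_num
          ring
        have hp1 : 0 < (n : ℝ) ^ (3 / 2 : ℝ) := Real.rpow_pos_of_pos hn0 _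
        have hp2 : 0 < (n : ℝ) ^ (1 / 2 : ℝ) := Real.rpow_pos_of_pos hn0 _
        rw [div_le_iff₀ (by apply mul_pos hn0; linarith only [h1])]
        have h5 : 4 * (1 / (n : ℝ) ^ (3 / 2 : ℝ)) * ((n : ℝ) * ((n : ℝ) - 1)) ≥
            4 * (1 / (n : ℝ) ^ (3 / 2 : ℝ)) * ((n : ℝ) * ((n : ℝ) / 2)) := by
          apply mul_le_mul_of_nonneg_left _ (by positivity)
          apply mul_le_mul_of_nonneg_left hn1 hn0.le
        have h6 : 4 * (1 / (n : ℝ) ^ (3 / 2 : ℝ)) * ((n : ℝ) * ((n : ℝ) / 2)) =
            2 * (n : ℝ) ^ (1 / 2 : ℝ) := by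
          have : (n : ℝ) * ((n : ℝ) / 2) = (n : ℝ) ^ (3 / 2 : ℝ) * (n : ℝ) ^ (1 / 2 : ℝ) / 2 := by
            rw [hrp]; ring
          rw [this]
          field_simp
          norm_num
        linarith only [hlog, h5, h6]
  refine ⟨1 + ∑' n : ℕ, Real.log n / ((n : ℝ) * ((n : ℝ) - 1)), ?_, ?_⟩
  · have : 0 ≤ ∑' n : ℕ, Real.log n / ((n : ℝ) * ((n : ℝ) - 1)) := by
      apply tsum_nonneg
      intro n
      rcases Nat.eq_zero_or_pos n with rfl | hn
      · simp
      · have h1 : (1 : ℝ) ≤ n := by exact_mod_cast hn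
        apply div_nonneg (Real.log_nonneg h1)
        apply mul_nonneg (by linarith only [h1]) (by linarith)
    linarith
  · intro n hn
    have hn0 : (0 : ℝ) < n := by exact_mod_cast hn
    have h1 := le_log_factorial n hn
    rw [log_factorial_eq] at h1
    have h2 : ∑ p ∈ (range (n + 1)).filter Nat.Prime, (padicValNat p n.factorial : ℝ) * Real.log p
        ≤ ∑ p ∈ (range (n + 1)).filter Nat.Prime, (n / ((p : ℝ) - 1)) * Real.log p := by
      apply sum_le_sum
      intro p hp
      rw [mem_filter, mem_range] at hp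
      apply mul_le_mul_of_nonneg_right (padic_le p n hp.2)
      exact Real.log_nonneg (by exact_mod_cast hp.2.one_le)
    have h3 : ∑ p ∈ (range (n + 1)).filter Nat.Prime, (n / ((p : ℝ) - 1)) * Real.log p =
        n * (∑ p ∈ (range (n + 1)).filter Nat.Prime, Real.log p / p +
          ∑ p ∈ (range (n + 1)).filter Nat.Prime, Real.log p / ((p : ℝ) * ((p : ℝ) - 1))) := by
      rw [← sum_add_distrib, mul_sum]
      apply sum_congr rfl
      intro p hp
      rw [mem_filter, mem_range] at hp
      have h1 : (2 : ℝ) ≤ p := by exact_mod_cast hp.2.two_le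
      have h2 : (p : ℝ) - 1 ≠ 0 := by linarith only [h1]
      have h3 : (p : ℝ) ≠ 0 := by linarith only [h1]
      field_simp
      ring
    have h4 : ∑ p ∈ (range (n + 1)).filter Nat.Prime, Real.log p / ((p : ℝ) * ((p : ℝ) - 1)) ≤
        ∑' n : ℕ, Real.log n / ((n : ℝ) * ((n : ℝ) - 1)) := by
      apply hsum.sum_le_tsum
      intro i _
      rcases Nat.eq_zero_or_pos i with rfl | hi
      · simp
      · have h1 : (1 : ℝ) ≤ i := by exact_mod_cast hi
        apply div_nonneg (Real.log_nonneg h1)
        apply mul_nonneg (by linarith only [h1]) (by linarith only [h1])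
    have h5 : n * (Real.log n - 1) ≤ n * (∑ p ∈ (range (n + 1)).filter Nat.Prime, Real.log p / p +
          ∑ p ∈ (range (n + 1)).filter Nat.Prime, Real.log p / ((p : ℝ) * ((p : ℝ) - 1))) := by
      linarith only [h1, h2, h3]
    have h6 := le_of_mul_le_mul_left h5 hn0
    linarith only [h4, h6]

/-- Mertens' first theorem. -/
theorem mertens_one : ∃ C : ℝ, 0 < C ∧ ∀ x : ℕ, 1 ≤ x →
    |(∑ p ∈ (range x).filter Nat.Prime, Real.log p / p) - Real.log x| ≤ C := by
  obtain ⟨C, hC, hlow⟩ := sum_log_ge
  refine ⟨C + Real.log 4 + 1, by positivity, ?_⟩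
  intro x hx
  have hlog4 : 0 ≤ Real.log 4 := Real.log_nonneg (by norm_num)
  rcases Nat.lt_or_ge x 2 with h | h
  · have : x = 1 := by omega
    subst this
    have : (range 1).filter Nat.Prime = ∅ := by decide
    rw [this]
    simp
    linarith only [hC, hlog4]
  · obtain ⟨n, rfl⟩ : ∃ n, x = n + 1 := ⟨x - 1, by omega⟩
    have hn : 1 ≤ n := by omega
    have hn0 : (0 : ℝ) < n := by exact_mod_cast hn
    have hn1 : (1 : ℝ) ≤ n := by exact_mod_cast hn
    have h1 := sum_log_le n hn
    have h2 := hlow n hn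
    have h3 : Real.log n ≤ Real.log ((n + 1 : ℕ) : ℝ) := by
      apply Real.log_le_log hn0
      push_cast; linarith only []
    have h4 : Real.log ((n + 1 : ℕ) : ℝ) ≤ Real.log n + 1 := by
      have : Real.log ((n + 1 : ℕ) : ℝ) ≤ Real.log (n * Real.exp 1) := by
        apply Real.log_le_log (by positivity)
        have : (2 : ℝ) ≤ Real.exp 1 := by
          have := Real.add_one_le_exp (1 : ℝ)
          linarith only [this]
        push_cast
        nlinarith only [hn1, this]
      rw [Real.log_mul hn0.ne' (Real.exp_pos 1).ne', Real.log_exp] at this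
      exact this
    rw [abs_le]
    constructor <;> linarith only [hlog4, h2, h4, hC, h1, h3]

/-- The step of the summation by parts in Mertens' second theorem. -/
lemma mertens_two_aux (C : ℝ) (hC : ∀ x : ℕ, 1 ≤ x → |mA x - Real.log x| ≤ C) (x : ℕ)
    (hx : 2 ≤ x) (z : ℕ) (hz : x ≤ z) :
    ∑ p ∈ (Ico x z).filter Nat.Prime, 1 / (p : ℝ) ≤
      Real.log (Real.log z) - Real.log (Real.log x) +
      (mA z - Real.log z) / Real.log z - (mA x - Real.log x) / Real.log x +
      (C + 1) * (1 / Real.log x - 1 / Real.log z) := by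
  induction z, hz using Nat.le_induction with
  | base => simp
  | succ z hz ih =>
    have hz2 : 2 ≤ z := hx.trans hz
    have hzR : (2 : ℝ) ≤ z := by exact_mod_cast hz2
    have hlz : 0 < Real.log z := Real.log_pos (by linarith only [hzR])
    have hlz1 : Real.log z < Real.log ((z + 1 : ℕ) : ℝ) := by
      apply Real.log_lt_log (by linarith only [hzR])
      push_cast; linarith only []
    have hlz1' : 0 < Real.log ((z + 1 : ℕ) : ℝ) := hlz.trans hlz1
    set u := Real.log z with hu
    set v := Real.log ((z + 1 : ℕ) : ℝ) with hv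
    have hIco : Ico x (z + 1) = insert z (Ico x z) := by
      rw [← Nat.Ico_succ_right_eq_insert_Ico hz]
    have hterm : ∑ p ∈ (Ico x (z + 1)).filter Nat.Prime, 1 / (p : ℝ) =
        ∑ p ∈ (Ico x z).filter Nat.Prime, 1 / (p : ℝ) + (mA (z + 1) - mA z) / u := by
      have hA : mA (z + 1) = mA z + (if z.Prime then u / z else 0) := by
        unfold mA
        rw [range_add_one, filter_insert]
        split_ifs with hp
        · rw [sum_insert (by simp)]
          rw [hu]; ring
        · simp
      rw [hA, hIco, filter_insert]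
      split_ifs with hp
      · rw [sum_insert (by simp)]
        have : (z : ℝ) ≠ 0 := by linarith only [hzR]
        field_simp
        ring
      · simp
    rw [hterm]
    have h1 : v - u ≤ 1 := by
      have : v ≤ Real.log (z * Real.exp 1) := by
        apply Real.log_le_log (by positivity)
        have : (2 : ℝ) ≤ Real.exp 1 := by
          have := Real.add_one_le_exp (1 : ℝ)
          linarith only [this]
        push_cast
        nlinarith only [hzR, this]
      rw [Real.log_mul (by linarith only [hzR]) (Real.exp_pos 1).ne', Real.log_exp] at this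
      linarith only [this]
    have h2 : (v - u) / v ≤ Real.log v - Real.log u := by
      have := Real.one_sub_inv_le_log_of_pos (show 0 < v / u by positivity)
      rw [Real.log_div hlz1'.ne' hlz.ne'] at this
      refine le_trans (le_of_eq ?_) this
      field_simp
    have hE := hC (z + 1) (by omega)
    rw [abs_le] at hE
    set e := mA z - u with he
    set e' := mA (z + 1) - v with he'
    have hmA : mA (z + 1) - mA z = (v - u) + (e' - e) := by rw [he, he']; ring
    rw [hmA]
    have h3 : ((v - u) + (e' - e)) / u = (v - u) / v + (v - u) * (1 / u - 1 / v) +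
        e' / v - e / u + e' * (1 / u - 1 / v) := by
      field_simp
      ring
    have h4 : 0 ≤ 1 / u - 1 / v := by
      rw [sub_nonneg]
      exact one_div_le_one_div_of_le hlz hlz1.le
    have h5 : (v - u) * (1 / u - 1 / v) ≤ 1 * (1 / u - 1 / v) :=
      mul_le_mul_of_nonneg_right h1 h4
    have h6 : e' * (1 / u - 1 / v) ≤ C * (1 / u - 1 / v) :=
      mul_le_mul_of_nonneg_right hE.2 h4
    have h7 : (C + 1) * (1 / Real.log x - 1 / v) = (C + 1) * (1 / Real.log x - 1 / u) +
      (C * (1 / u - 1 / v) + 1 * (1 / u - 1 / v)) := by ring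
    rw [h3, h7]
    linarith only [h2, ih, h5, h6]

/-- One-sided Mertens' second theorem. -/
theorem mertens_two : ∃ C : ℝ, 0 < C ∧ ∀ x z : ℕ, 2 ≤ x → x ≤ z →
    ∑ p ∈ (Ico x z).filter Nat.Prime, 1 / (p : ℝ) ≤
      Real.log (Real.log z) - Real.log (Real.log x) + C / Real.log x := by
  obtain ⟨C, hC0, hC⟩ := mertens_one
  refine ⟨3 * C + 1, by linarith, ?_⟩
  intro x z hx hz
  have h := mertens_two_aux C (fun x hx => hC x hx) x hx z hz
  have hxR : (2 : ℝ) ≤ x := by exact_mod_cast hx
  have hzR : (x : ℝ) ≤ z := by exact_mod_cast hz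
  have hlx : 0 < Real.log x := Real.log_pos (by linarith only [hxR])
  have hlz : Real.log x ≤ Real.log z := Real.log_le_log (by linarith only [hxR]) hzR
  have hlz0 : 0 < Real.log z := lt_of_lt_of_le hlx hlz
  have hEz := hC z (by omega)
  have hEx := hC x (by omega)
  rw [abs_le] at hEz hEx
  have h1 : (mA z - Real.log z) / Real.log z ≤ C / Real.log x := by
    calc (mA z - Real.log z) / Real.log z ≤ C / Real.log z :=
          div_le_div_of_nonneg_right hEz.2 hlz0.le
      _ ≤ C / Real.log x := div_le_div_of_nonneg_left hC0.le hlx hlz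
  have h2 : -((mA x - Real.log x) / Real.log x) ≤ C / Real.log x := by
    rw [← neg_div]
    apply div_le_div_of_nonneg_right _ hlx.le
    have := hEx.1
    unfold mA
    linarith only [hEx]
  have h3 : (C + 1) * (1 / Real.log x - 1 / Real.log z) ≤ (C + 1) / Real.log x := by
    have : 0 ≤ 1 / Real.log z := by positivity
    calc (C + 1) * (1 / Real.log x - 1 / Real.log z) ≤ (C + 1) * (1 / Real.log x) := by
          apply mul_le_mul_of_nonneg_left _ (by linarith only [hC0])
          linarith only [this]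
      _ = (C + 1) / Real.log x := by ring
  have h4 : (3 * C + 1) / Real.log x = C / Real.log x + C / Real.log x + (C + 1) / Real.log x := by
    ring
  rw [h4]
  linarith only [h, h1, h2, h3]

lemma one_sub_inv_ge (p : ℕ) (hp : 2 ≤ p) :
    Real.exp (-(1 / (p : ℝ) + (1 / ((p : ℝ) - 1) - 1 / p))) ≤ 1 - 1 / (p : ℝ) := by
  have h1 : (2 : ℝ) ≤ p := by exact_mod_cast hp
  have h2 : (0 : ℝ) < (p : ℝ) - 1 := by linarith
  have h3 : -(1 / (p : ℝ) + (1 / ((p : ℝ) - 1) - 1 / p)) = -(1 / ((p : ℝ) - 1)) := by ring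
  rw [h3, Real.exp_neg]
  have h4 := Real.add_one_le_exp (1 / ((p : ℝ) - 1))
  have h5 : 1 - 1 / (p : ℝ) = (1 / ((p : ℝ) - 1) + 1)⁻¹ := by
    field_simp
    ring
  rw [h5]
  apply inv_anti₀ _ h4
  positivity

/-- Product form of Mertens, one-sided. -/
theorem mertens_prod : ∃ C : ℝ, 0 < C ∧ ∀ x z : ℕ, 2 ≤ x → x ≤ z →
    Real.log x - C ≤ Real.log z * ∏ p ∈ (Ico x z).filter Nat.Prime, (1 - 1 / (p : ℝ)) := by
  obtain ⟨C, hC0, hC⟩ := mertens_two
  refine ⟨C + 1, by linarith, ?_⟩
  intro x z hx hz
  have hxR : (2 : ℝ) ≤ x := by exact_mod_cast hx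
  have hzR : (x : ℝ) ≤ z := by exact_mod_cast hz
  have hlx : 0 < Real.log x := Real.log_pos (by linarith only [hxR])
  have hlz : Real.log x ≤ Real.log z := Real.log_le_log (by linarith only [hxR]) hzR
  have hlz0 : 0 < Real.log z := lt_of_lt_of_le hlx hlz
  have h1 := hC x z hx hz
  have h2 : ∀ z : ℕ, x ≤ z → ∑ p ∈ (Ico x z).filter Nat.Prime, (1 / ((p : ℝ) - 1) - 1 / p) ≤
      1 / ((x : ℝ) - 1) - 1 / ((z : ℝ) - 1) := by
    intro z hz
    induction z, hz using Nat.le_induction with
    | base => simp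
    | succ z hz ih =>
      have hIco : Ico x (z + 1) = insert z (Ico x z) := by
        rw [← Nat.Ico_succ_right_eq_insert_Ico hz]
      have hz2 : (2 : ℝ) ≤ z := by exact_mod_cast hx.trans hz
      have hpos : 0 ≤ 1 / ((z : ℝ) - 1) - 1 / z := by
        rw [sub_nonneg]
        apply one_div_le_one_div_of_le <;> linarith only [hz2]
      rw [hIco, filter_insert]
      push_cast
      have hz1 : (z : ℝ) + 1 - 1 = z := by ring
      rw [hz1]
      split_ifs with hp
      · rw [sum_insert (by simp)]
        linarith only [ih]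
      · linarith only [ih, hpos]
  have h3 : ∑ p ∈ (Ico x z).filter Nat.Prime, (1 / ((p : ℝ) - 1) - 1 / p) ≤ 1 / Real.log x := by
    refine (h2 z hz).trans ?_
    have h4 : 0 ≤ 1 / ((z : ℝ) - 1) := by
      apply div_nonneg zero_le_one
      linarith
    have h5 : 1 / ((x : ℝ) - 1) ≤ 1 / Real.log x := by
      apply one_div_le_one_div_of_le hlx
      have := Real.log_le_sub_one_of_pos (show (0 : ℝ) < x by linarith only [hxR])
      exact this
    linarith only [h4, h5]
  have h4 : Real.exp (-(∑ p ∈ (Ico x z).filter Nat.Prime,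
      (1 / (p : ℝ) + (1 / ((p : ℝ) - 1) - 1 / p)))) ≤
      ∏ p ∈ (Ico x z).filter Nat.Prime, (1 - 1 / (p : ℝ)) := by
    rw [← sum_neg_distrib, Real.exp_sum]
    apply prod_le_prod
    · intro p _; exact (Real.exp_pos _).le
    · intro p hp
      rw [mem_filter, mem_Ico] at hp
      exact one_sub_inv_ge p hp.2.two_le
  have h5 : ∑ p ∈ (Ico x z).filter Nat.Prime, (1 / (p : ℝ) + (1 / ((p : ℝ) - 1) - 1 / p)) ≤
      Real.log (Real.log z) - Real.log (Real.log x) + (C + 1) / Real.log x := by
    rw [sum_add_distrib]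
    have : (C + 1) / Real.log x = C / Real.log x + 1 / Real.log x := by ring
    rw [this]
    linarith only [h1, h3]
  have h6 : Real.exp (-(Real.log (Real.log z) - Real.log (Real.log x) + (C + 1) / Real.log x)) ≤
      ∏ p ∈ (Ico x z).filter Nat.Prime, (1 - 1 / (p : ℝ)) := by
    refine le_trans ?_ h4
    apply Real.exp_le_exp.mpr
    linarith only [h5]
  have h7 : Real.exp (-(Real.log (Real.log z) - Real.log (Real.log x) + (C + 1) / Real.log x)) =
      Real.log x / Real.log z * Real.exp (-((C + 1) / Real.log x)) := by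
    have : -(Real.log (Real.log z) - Real.log (Real.log x) + (C + 1) / Real.log x) =
      Real.log (Real.log x) - Real.log (Real.log z) + -((C + 1) / Real.log x) := by ring
    rw [this, Real.exp_add, Real.exp_sub, Real.exp_log hlx, Real.exp_log hlz0]
  have h8 : 1 - (C + 1) / Real.log x ≤ Real.exp (-((C + 1) / Real.log x)) := by
    have := Real.add_one_le_exp (-((C + 1) / Real.log x))
    linarith only [this]
  calc Real.log x - (C + 1) = Real.log z * (Real.log x / Real.log z *
        (1 - (C + 1) / Real.log x)) := by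
        field_simp
    _ ≤ Real.log z * (Real.log x / Real.log z * Real.exp (-((C + 1) / Real.log x))) := by
        apply mul_le_mul_of_nonneg_left _ hlz0.le
        apply mul_le_mul_of_nonneg_left h8 (by positivity)
    _ ≤ _ := by
        apply mul_le_mul_of_nonneg_left _ hlz0.le
        rw [← h7]; exact h6

theorem sum_inv_prime_le : ∃ C : ℝ, 0 < C ∧ ∀ z : ℕ, 2 ≤ z →
    ∑ p ∈ (range z).filter Nat.Prime, 1 / (p : ℝ) ≤ Real.log (Real.log z) + C := by
  obtain ⟨C, hC0, hC⟩ := mertens_two
  have hl2 : 0 < Real.log 2 := Real.log_pos (by norm_num)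
  refine ⟨|Real.log (Real.log 2)| + C / Real.log 2, by positivity, ?_⟩
  intro z hz
  have h1 := hC 2 z le_rfl hz
  have h2 : (range z).filter Nat.Prime = (Ico 2 z).filter Nat.Prime := by
    ext p
    simp only [mem_filter, mem_range, mem_Ico]
    constructor
    · rintro ⟨h1, h2⟩; exact ⟨⟨h2.two_le, h1⟩, h2⟩
    · rintro ⟨h1, h2⟩; exact ⟨h1.2, h2⟩
  rw [h2]
  have h3 := neg_abs_le (Real.log (Real.log 2))
  have h4 : Real.log (Real.log ((2 : ℕ) : ℝ)) = Real.log (Real.log 2) := by norm_num
  have h5 : Real.log ((2 : ℕ) : ℝ) = Real.log 2 := by norm_num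
  rw [h4, h5] at h1
  linarith only [h1, h3]

end Vale.Agent.P013
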